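import Mathlib

/-!
Definitions for the gadget reduction from Max-Not-Two to 2-to-1 games (alphabets `[12]`, `[6]`).
-/

namespace Vale.Agent.Lib.P339

open Finset

/-- A 2-to-1 game with alphabets `[2q]` (left) and `[q]` (right): constraints `e : E` carry a left
vertex, a right vertex and a map `proj e` all of whose fibres have exactly two elements, and `μ` is a
probability distribution on the constraints. -/
structure TwoToOneGame (q : ℕ) (U V E : Type) [Fintype E] where
  left : E → U
  right : E → V
  proj : E → Fin (2 * q) → Fin q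
  two_to_one : ∀ e b, (univ.filter fun a => proj e a = b).card = 2
  μ : E → ℝ
  μ_nonneg : ∀ e, 0 ≤ μ e
  μ_sum : ∑ e, μ e = 1

/-- The `μ`-mass of the constraints satisfied by the labeling `A`, `B`. -/
noncomputable def TwoToOneGame.satisfiedMass {q : ℕ} {U V E : Type} [Fintype E]
    (G : TwoToOneGame q U V E) (A : U → Fin (2 * q)) (B : V → Fin q) : ℝ :=
  ∑ e, if G.proj e (A (G.left e)) = B (G.right e) then G.μ e else 0

/-- The value of the game: the largest satisfied mass over all labelings. -/
noncomputable def TwoToOneGame.value {q : ℕ} {U V E : Type} [Fintype E]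
    (G : TwoToOneGame q U V E) : ℝ :=
  ⨆ p : (U → Fin (2 * q)) × (V → Fin q), G.satisfiedMass p.1 p.2

/-- An instance of Max-Not-Two: weighted clauses over Boolean variables `X`, each clause
on three literals (`var c i` negated if `neg c i`). -/
structure NTWInstance (X C : Type) [Fintype C] where
  var : C → Fin 3 → X
  neg : C → Fin 3 → Bool
  μ : C → ℝ
  μ_nonneg : ∀ c, 0 ≤ μ c
  μ_sum : ∑ c, μ c = 1

/-- The truth value of the `i`-th literal of clause `c` under the assignment `σ`. -/
def NTWInstance.lit {X C : Type} [Fintype C] (Φ : NTWInstance X C) (σ : X → Bool) (c : C)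
    (i : Fin 3) : Bool :=
  xor (σ (Φ.var c i)) (Φ.neg c i)

/-- A clause holds when the number of its true literals is not two. -/
def NTWInstance.Holds {X C : Type} [Fintype C] (Φ : NTWInstance X C) (σ : X → Bool) (c : C) : Prop :=
  [Φ.lit σ c 0, Φ.lit σ c 1, Φ.lit σ c 2].count true ≠ 2

/-- The instance is satisfiable: some assignment makes every clause hold. -/
def NTWInstance.Satisfiable {X C : Type} [Fintype C] (Φ : NTWInstance X C) : Prop :=
  ∃ σ : X → Bool, ∀ c, Φ.Holds σ c

open Classical in
/-- The mass of the clauses that hold under `σ`. -/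
noncomputable def NTWInstance.satisfiedMass {X C : Type} [Fintype C] (Φ : NTWInstance X C)
    (σ : X → Bool) : ℝ :=
  ∑ c, if Φ.Holds σ c then Φ.μ c else 0

/-- The value of the instance: the largest satisfied mass over all assignments. -/
noncomputable def NTWInstance.value {X C : Type} [Fintype C] (Φ : NTWInstance X C) : ℝ :=
  ⨆ σ : X → Bool, Φ.satisfiedMass σ

/-- The label swap `j ↦ j + 3` on `[6]`, applied when a literal is negated. -/
def flipLabel (b : Bool) (j : Fin 6) : Fin 6 := if b then j + 3 else j

/-- First gadget table: the projection of a label of the first left vertex to the variable `x`. -/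
def T1x : Fin 12 → Fin 6 := ![0, 3, 0, 3, 1, 4, 1, 2, 2, 4, 5, 5]

/-- The projection of a label of the first left vertex to the auxiliary right vertex `t`. -/
def T1t : Fin 12 → Fin 6 := ![0, 0, 2, 4, 1, 1, 2, 3, 3, 4, 5, 5]

/-- The projection of a label of the second left vertex to the variable `y`. -/
def T2y : Fin 12 → Fin 6 := ![0, 1, 1, 2, 0, 3, 2, 5, 3, 4, 4, 5]

/-- The projection of a label of the second left vertex to the variable `z`. -/
def T2z : Fin 12 → Fin 6 := ![0, 1, 2, 1, 3, 0, 5, 2, 3, 4, 5, 4]

/-- The projection of a label of the second left vertex to the auxiliary right vertex `t`. -/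
def T2t : Fin 12 → Fin 6 := ![0, 0, 1, 1, 2, 2, 3, 3, 4, 4, 5, 5]

/-- The reduction. Each clause `c` on literals of `x, y, z` gets two left vertices `(c, 0)`, `(c, 1)`,
one auxiliary right vertex `inr c`, and five constraints, each of weight `μ c / 5`:
`(c,0)-x`, `(c,0)-t`, `(c,1)-t`, `(c,1)-y`, `(c,1)-z`. Variables are right vertices `inl x`. -/
noncomputable def reduction {X C : Type} [Fintype C] (Φ : NTWInstance X C) :
    TwoToOneGame 6 (C × Fin 2) (X ⊕ C) (C × Fin 5) where
  left e := (e.1, if e.2.val ≤ 1 then 0 else 1)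
  right e :=
    match e.2 with
    | 0 => Sum.inl (Φ.var e.1 0)
    | 1 => Sum.inr e.1
    | 2 => Sum.inr e.1
    | 3 => Sum.inl (Φ.var e.1 1)
    | 4 => Sum.inl (Φ.var e.1 2)
  proj e a :=
    match e.2 with
    | 0 => flipLabel (Φ.neg e.1 0) (T1x a)
    | 1 => T1t a
    | 2 => T2t a
    | 3 => flipLabel (Φ.neg e.1 1) (T2y a)
    | 4 => flipLabel (Φ.neg e.1 2) (T2z a)
  two_to_one := by
    rintro ⟨c, i⟩ b
    have h1 : ∀ (n : Bool) (b : Fin 6),
        (univ.filter fun a : Fin 12 => flipLabel n (T1x a) = b).card = 2 := by decide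
    have h2 : ∀ b : Fin 6, (univ.filter fun a : Fin 12 => T1t a = b).card = 2 := by decide
    have h3 : ∀ b : Fin 6, (univ.filter fun a : Fin 12 => T2t a = b).card = 2 := by decide
    have h4 : ∀ (n : Bool) (b : Fin 6),
        (univ.filter fun a : Fin 12 => flipLabel n (T2y a) = b).card = 2 := by decide
    have h5 : ∀ (n : Bool) (b : Fin 6),
        (univ.filter fun a : Fin 12 => flipLabel n (T2z a) = b).card = 2 := by decide
    fin_cases i
    · exact h1 _ b
    · exact h2 b
    · exact h3 b
    · exact h4 _ b
    · exact h5 _ b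
  μ e := Φ.μ e.1 / 5
  μ_nonneg e := div_nonneg (Φ.μ_nonneg e.1) (by norm_num)
  μ_sum := by
    rw [Fintype.sum_prod_type]
    simp only [Finset.sum_const, Finset.card_univ, Fintype.card_fin, nsmul_eq_mul]
    have : ∀ c, ((5 : ℕ) : ℝ) * (Φ.μ c / 5) = Φ.μ c := by
      intro c; push_cast; ring
    simp only [this]
    exact Φ.μ_sum

end Vale.Agent.Lib.P339
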